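import Vale.Agent.P154.Full.Regular
import Vale.Agent.P154.Full.Poisson

/-!
# The three- and four-state Potts channels on trees: the threshold is `d * lam ^ 2 = 1`
-/

namespace Vale.Agent.Results.P154.PottsThreshold

open Filter Topology Vale.P154
open scoped ENNReal

/-- On `d`-ary trees and on Poisson Galton-Watson trees, for three states with every admissible
coupling and for four states with `lam ≥ 0`, reconstruction occurs exactly when `d * lam ^ 2 > 1`;
for nonnegative coupling every offspring law with `P(k ≥ 2) > 0` and `lam ^ 2 * mean ≤ 1` gives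
none. -/
theorem result (q : ℕ) (lam : ℝ)
    (hq : q = 3 ∧ -(1 / 2) ≤ lam ∨ q = 4 ∧ 0 ≤ lam) (h1 : lam ≤ 1) :
    (∀ d : ℕ, 2 ≤ d →
      (Tendsto (fun n => aReg q d lam n) atTop (𝓝 0) ↔ (d : ℝ) * lam ^ 2 ≤ 1)) ∧
    (∀ d : ℝ, 0 < d →
      (Tendsto (fun n => aGW q (poisWeight d) lam n) atTop (𝓝 0) ↔ d * lam ^ 2 ≤ 1)) ∧
    (0 ≤ lam → ∀ p : ℕ → ℝ, (∀ k, 0 ≤ p k) → (∑' k, ENNReal.ofReal (p k) = 1) →
      (∃ k, 2 ≤ k ∧ 0 < p k) →
      ENNReal.ofReal (lam ^ 2) * ∑' k, ENNReal.ofReal (p k) * k ≤ 1 →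
      Tendsto (fun n => aGW q p lam n) atTop (𝓝 0)) := by
  obtain ⟨hr, hp⟩ := Full.threshold_of_critical AF4.aReg_four_critical Full.pois_window q lam hq h1
  refine ⟨hr, hp, fun h p hp0 hp1 hp2 hm => ?_⟩
  rcases hq with ⟨rfl, _⟩ | ⟨rfl, _⟩
  · exact aGW_zero_of_twoPoint (by norm_num) (by norm_num; linarith) h1
      (η := lam ^ 2 / 16) (by positivity) (fun h' => by positivity) (Q3.twoPoint lam h h1)
      hp0 hp1 hp2 hm
  · have hl : -1 / (((4 : ℕ) : ℝ) - 1) ≤ lam := by norm_num; linarith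
    rcases h.eq_or_lt with e | e
    · subst e
      exact aGW_zero_of_twoPoint (by norm_num) hl h1 le_rfl (fun h => absurd rfl h)
        (Q4.twoPoint le_rfl h1) hp0 hp1 hp2 hm
    · exact aGW_zero_of_sq (by norm_num) hl h1 (η := lam ^ 4 / 10000) (by positivity) _
        (Q4.twoPoint_slack h h1) hp0 hp1 hp2 hm

end Vale.Agent.Results.P154.PottsThreshold
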